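import Vale.Agent.Lib.P205B.Main
import Vale.Agent.Lib.P205F.MT5
import Vale.Agent.Lib.P205X.XF
import Vale.Agent.Lib.P205E.EX
import Vale.Agent.Lib.P205I.Final

/-!
# P205: the main theorem for a surface given by an atlas and a metric given by its coefficients
-/

open scoped Manifold ContDiff Topology RealInnerProductSpace
open Set

namespace P205D

open P205F

/-- the case of a surface in universe `0` -/
theorem atlas0 {M : Type} {I : Type*} [TopologicalSpace M] [CompactSpace M] [T2Space M]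
    (φ : I → OpenPartialHomeomorph M (ℝ × ℝ)) (hcov : ∀ p : M, ∃ i, p ∈ (φ i).source)
    (htr : ∀ i j, ContDiffOn ℝ ∞ (fun x => φ j ((φ i).symm x))
      {x | x ∈ (φ i).target ∧ (φ i).symm x ∈ (φ j).source})
    (g : I → ℝ × ℝ → ℝ × ℝ →L[ℝ] ℝ × ℝ →L[ℝ] ℝ)
    (hg : ∀ i, ContDiffOn ℝ ∞ (g i) (φ i).target)
    (hsym : ∀ i, ∀ x ∈ (φ i).target, ∀ v w, g i x v w = g i x w v)
    (hpos : ∀ i, ∀ x ∈ (φ i).target, ∀ v, v ≠ 0 → 0 < g i x v v)
    (hcomp : ∀ i j, ∀ x ∈ (φ i).target, (φ i).symm x ∈ (φ j).source → ∀ v w,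
      g i x v w = g j (φ j ((φ i).symm x)) (fderiv ℝ (fun y => φ j ((φ i).symm y)) x v)
        (fderiv ℝ (fun y => φ j ((φ i).symm y)) x w)) :
    ∃ F : M → EuclideanSpace ℝ (Fin 4), ∀ i,
      ContDiffOn ℝ ∞ (fun x => F ((φ i).symm x)) (φ i).target ∧
      ∀ x ∈ (φ i).target, ∀ v w : ℝ × ℝ,
        inner ℝ (fderiv ℝ (fun y => F ((φ i).symm y)) x v)
          (fderiv ℝ (fun y => F ((φ i).symm y)) x w) = g i x v w := by
  choose c hc using hcov
  letI ch : ChartedSpace E2 M :=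
    { atlas := Set.range φ
      chartAt := fun p => φ (c p)
      mem_chart_source := hc
      chart_mem_atlas := fun p => ⟨c p, rfl⟩ }
  haveI man : IsManifold 𝓘(ℝ, E2) ∞ M := by
    refine isManifold_of_contDiffOn 𝓘(ℝ, E2) ∞ M ?_
    rintro e e' ⟨i, rfl⟩ ⟨j, rfl⟩
    refine (htr i j).mono ?_
    intro x hx
    have h3 := hx.1
    simp only [mfld_simps] at h3
    exact h3
  have hA : ∀ i, φ i ∈ ATL M := fun i => IsManifold.subset_maximalAtlas ⟨i, rfl⟩
  let H : M → Bil := fun p => g (c p) (φ (c p) p)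
  have hloc : ∀ i, ∀ x ∈ (φ i).target, locT (φ i) H x = g i x := by
    intro i x hx
    refine ContinuousLinearMap.ext fun v => ContinuousLinearMap.ext fun w => ?_
    exact (hcomp i (c ((φ i).symm x)) x hx (hc _) v w).symm
  have hmet : IsMetric H := by
    refine ⟨smT_of_loc fun p => ⟨φ (c p), hA _, hc p, ?_⟩, fun p => ?_⟩
    · have hn := (φ (c p)).open_target.mem_nhds ((φ (c p)).map_source (hc p))
      refine ((hg (c p)).contDiffAt hn).congr_of_eventuallyEq ?_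
      filter_upwards [hn] with x hx
      exact hloc _ x hx
    · have hx := (φ (c p)).map_source (hc p)
      exact ⟨fun v w => hsym _ _ hx v w, fun v hv => hpos _ _ hx v hv⟩
  obtain ⟨ι, hι, hinj⟩ := exists_immersion (M := M)
  obtain ⟨F, hF, hFg⟩ := main_E2 (M := M) thmT (thmES thmT EE.esaStmt) ι hι hinj hmet
  refine ⟨F, fun i => ⟨hF.loc (hA i), fun x hx v w => ?_⟩⟩
  have h1 := locT_metr hF (hA i) hx
  have h2 : metr F = H := funext hFg
  rw [h2, hloc i x hx] at h1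
  rw [h1]
  rfl

theorem small_of_charts {M : Type*} {I : Type*} [TopologicalSpace M] [CompactSpace M]
    (φ : I → OpenPartialHomeomorph M (ℝ × ℝ)) (hcov : ∀ p : M, ∃ i, p ∈ (φ i).source) :
    Small.{0} M := by
  obtain ⟨t, ht⟩ := isCompact_univ.elim_finite_subcover (fun i => (φ i).source)
    (fun i => (φ i).open_source) (fun p _ => mem_iUnion.2 (hcov p))
  have h : ∀ p : M, ∃ i : t, p ∈ (φ i).source := fun p => by
    obtain ⟨i, hi, hp⟩ := mem_iUnion₂.1 (ht (mem_univ p))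
    exact ⟨⟨i, hi⟩, hp⟩
  choose c hc using h
  have hs : Small.{0} (t × (ℝ × ℝ)) := inferInstance
  refine small_of_injective (f := fun p => ((c p, φ (c p) p) : t × (ℝ × ℝ))) ?_
  intro p q hpq
  have h1 : c p = c q := congrArg Prod.fst hpq
  have h2 : φ (c p) p = φ (c q) q := congrArg Prod.snd hpq
  have h3 := hc q
  rw [← h1] at h2 h3
  exact (φ (c p)).injOn (hc p) h3 h2

/-- any universe -/
theorem atlas_main {M : Type*} {I : Type*} [TopologicalSpace M] [CompactSpace M] [T2Space M]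
    (φ : I → OpenPartialHomeomorph M (ℝ × ℝ)) (hcov : ∀ p : M, ∃ i, p ∈ (φ i).source)
    (htr : ∀ i j, ContDiffOn ℝ ∞ (fun x => φ j ((φ i).symm x))
      {x | x ∈ (φ i).target ∧ (φ i).symm x ∈ (φ j).source})
    (g : I → ℝ × ℝ → ℝ × ℝ →L[ℝ] ℝ × ℝ →L[ℝ] ℝ)
    (hg : ∀ i, ContDiffOn ℝ ∞ (g i) (φ i).target)
    (hsym : ∀ i, ∀ x ∈ (φ i).target, ∀ v w, g i x v w = g i x w v)
    (hpos : ∀ i, ∀ x ∈ (φ i).target, ∀ v, v ≠ 0 → 0 < g i x v v)
    (hcomp : ∀ i j, ∀ x ∈ (φ i).target, (φ i).symm x ∈ (φ j).source → ∀ v w,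
      g i x v w = g j (φ j ((φ i).symm x)) (fderiv ℝ (fun y => φ j ((φ i).symm y)) x v)
        (fderiv ℝ (fun y => φ j ((φ i).symm y)) x w)) :
    ∃ F : M → EuclideanSpace ℝ (Fin 4), ∀ i,
      ContDiffOn ℝ ∞ (fun x => F ((φ i).symm x)) (φ i).target ∧
      ∀ x ∈ (φ i).target, ∀ v w : ℝ × ℝ,
        inner ℝ (fderiv ℝ (fun y => F ((φ i).symm y)) x v)
          (fderiv ℝ (fun y => F ((φ i).symm y)) x w) = g i x v w := by
  haveI := small_of_charts φ hcov
  let h : M ≃ₜ Shrink.{0} M := Shrink.homeomorph M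
  haveI : CompactSpace (Shrink.{0} M) := h.compactSpace
  haveI : T2Space (Shrink.{0} M) := h.t2Space
  let φ' : I → OpenPartialHomeomorph (Shrink.{0} M) (ℝ × ℝ) := fun i =>
    h.symm.transOpenPartialHomeomorph (φ i)
  have e1 : ∀ i x, (φ' i).symm x = h ((φ i).symm x) := fun i x => rfl
  have e2 : ∀ i q, φ' i q = φ i (h.symm q) := fun i q => rfl
  have e3 : ∀ i, (φ' i).target = (φ i).target := fun i => rfl
  have e4 : ∀ i q, q ∈ (φ' i).source ↔ h.symm q ∈ (φ i).source := fun i q => Iff.rfl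
  have e5 : ∀ i j x, φ' j ((φ' i).symm x) = φ j ((φ i).symm x) := fun i j x => by
    rw [e1, e2, Homeomorph.symm_apply_apply]
  have e6 : ∀ i j x, (φ' i).symm x ∈ (φ' j).source ↔ (φ i).symm x ∈ (φ j).source :=
    fun i j x => by rw [e1, e4, Homeomorph.symm_apply_apply]
  obtain ⟨F, hF⟩ := atlas0 φ' (fun q => by
      obtain ⟨i, hi⟩ := hcov (h.symm q)
      exact ⟨i, (e4 i q).2 hi⟩)
    (fun i j => by
      simp only [e5, e6, e3]
      exact htr i j) g (fun i => by rw [e3]; exact hg i) (fun i x hx => hsym i x hx)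
    (fun i x hx => hpos i x hx) (fun i j x hx hj v w => by
      simp only [e5]
      exact hcomp i j x hx ((e6 i j x).1 hj) v w)
  exact ⟨fun p => F (h p), fun i => hF i⟩

end P205D
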